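import Vale.Agent.P345.H880.CountDefs
import Vale.Agent.P345.H880.CountFinal

namespace Vale.Agent.Results.P345.SolutionCounts

open Vale.Agent.P345

/-- There is one number `m` of auxiliary variables such that the single-fold conjecture holds with
exactly `m` auxiliary variables (first conjunct: universal single-fold equation, bounded degree,
undecidability), and, with `m + 1` auxiliary variables, the numbers of solutions of polynomial
equations are exactly the lower semicomputable functions `ℕⁿ → ℕ ∪ {∞}`. -/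
theorem result : ∃ m : ℕ,
    -- (1) the single-fold conjecture, in universal form
    ((∀ n : ℕ, ∃ U : MvPolynomial (Fin (n + 1) ⊕ Fin m) ℤ, SingleFoldPoly U ∧
      ∀ S : Set (Fin n → ℕ), REPred (fun a => a ∈ S) → ∃ e : ℕ, ∀ a : Fin n → ℕ,
        a ∈ S ↔ ∃ w : Fin m → ℕ, IsWit U (Fin.cons e a) w) ∧
    (∀ n : ℕ, ∃ D : ℕ, ∀ S : Set (Fin n → ℕ), REPred (fun a => a ∈ S) →
      ∃ P : MvPolynomial (Fin n ⊕ Fin m) ℤ, P.totalDegree ≤ D ∧ SingleFoldPoly P ∧
        ∀ a : Fin n → ℕ, a ∈ S ↔ ∃ w : Fin m → ℕ, IsWit P a w) ∧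
    ∃ P : MvPolynomial (Fin 1 ⊕ Fin m) ℤ, SingleFoldPoly P ∧
      ¬ ComputablePred (fun x : ℕ => ∃ w : Fin m → ℕ, IsWit P ![x] w)) ∧
    -- (2) one equation whose solution counts are all lower semicomputable functions
    (∀ n : ℕ, ∃ U : MvPolynomial (Fin (n + 1) ⊕ Fin (m + 1)) ℤ,
      ∀ N : (Fin n → ℕ) → ℕ∞, LowerSemicomputable N ↔
        ∃ e : ℕ, ∀ a : Fin n → ℕ, numSol U (Fin.cons e a) = N a) ∧
    -- (3) bounded degree
    (∀ n : ℕ, ∃ D : ℕ, ∀ N : (Fin n → ℕ) → ℕ∞, LowerSemicomputable N ↔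
      ∃ P : MvPolynomial (Fin n ⊕ Fin (m + 1)) ℤ, P.totalDegree ≤ D ∧
        ∀ a : Fin n → ℕ, numSol P a = N a) ∧
    -- (4) the counts of every polynomial equation are lower semicomputable
    (∀ (n k : ℕ) (P : MvPolynomial (Fin n ⊕ Fin k) ℤ), LowerSemicomputable (numSol P)) ∧
    -- (5) every r.e. set by `k`-fold/`l`-fold equations
    (∀ n : ℕ, ∃ D : ℕ, ∀ S : Set (Fin n → ℕ), REPred (fun a => a ∈ S) →
      ∀ k l : ℕ∞, k < l → ∃ P : MvPolynomial (Fin n ⊕ Fin (m + 1)) ℤ, P.totalDegree ≤ D ∧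
        ∀ a : Fin n → ℕ, (a ∈ S → numSol P a = l) ∧ (a ∉ S → numSol P a = k)) ∧
    -- (6) undecidability of the number of solutions
    (∀ k l : ℕ∞, k < l → ∃ P : MvPolynomial (Fin 1 ⊕ Fin (m + 1)) ℤ,
      (∀ x : ℕ, numSol P ![x] = k ∨ numSol P ![x] = l) ∧
      ¬ ComputablePred (fun x : ℕ => numSol P ![x] = l)) ∧
    -- (7) the `Π₂` sets are exactly the sets of parameters with infinitely many solutions
    (∀ n : ℕ, ∃ D : ℕ, ∀ S : Set (Fin n → ℕ), IsPi2 S ↔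
      ∃ P : MvPolynomial (Fin n ⊕ Fin (m + 1)) ℤ, P.totalDegree ≤ D ∧
        ∀ a : Fin n → ℕ, a ∈ S ↔ {w : Fin (m + 1) → ℕ | IsWit P a w}.Infinite) ∧
    -- (8) unique solutions without computable bound
    ∃ P : MvPolynomial (Fin 1 ⊕ Fin (m + 1)) ℤ, SingleFoldPoly P ∧
      ∀ f : ℕ → ℕ, Computable f →
        {x : ℕ | ∃ w : Fin (m + 1) → ℕ, IsWit P ![x] w ∧ ∃ j, f x < w j}.Infinite :=
  H880.solutionCounts

end Vale.Agent.Results.P345.SolutionCounts
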