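import Vale.Agent.P345.H880.Defs
import Vale.Agent.P345.H880.Poly

namespace Vale.Agent.Results.P345.UniversalSingleFold

open Vale.Agent.P345

/-- There is one number `m` of auxiliary variables such that: (1) for every `n` there is a
universal single-fold equation `U(e, a, w) = 0` whose sections by the first parameter `e` are all
recursively enumerable subsets of `ℕⁿ`; (2) for every `n` there is `D` such that every recursively
enumerable set of `n`-tuples has a single-fold Diophantine representation of total degree at most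
`D` with exactly `m` auxiliary variables; (3) no algorithm decides solvability of a certain
one-parameter family of equations in `m` unknowns each of which has at most one solution. -/
theorem result : ∃ m : ℕ,
    (∀ n : ℕ, ∃ U : MvPolynomial (Fin (n + 1) ⊕ Fin m) ℤ, SingleFoldPoly U ∧
      ∀ S : Set (Fin n → ℕ), REPred (fun a => a ∈ S) → ∃ e : ℕ, ∀ a : Fin n → ℕ,
        a ∈ S ↔ ∃ w : Fin m → ℕ, IsWit U (Fin.cons e a) w) ∧
    (∀ n : ℕ, ∃ D : ℕ, ∀ S : Set (Fin n → ℕ), REPred (fun a => a ∈ S) →
      ∃ P : MvPolynomial (Fin n ⊕ Fin m) ℤ, P.totalDegree ≤ D ∧ SingleFoldPoly P ∧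
        ∀ a : Fin n → ℕ, a ∈ S ↔ ∃ w : Fin m → ℕ, IsWit P a w) ∧
    ∃ P : MvPolynomial (Fin 1 ⊕ Fin m) ℤ, SingleFoldPoly P ∧
      ¬ ComputablePred (fun x : ℕ => ∃ w : Fin m → ℕ, IsWit P ![x] w) :=
  H880.universal

end Vale.Agent.Results.P345.UniversalSingleFold
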